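import Vale.Agent.P011.D4X.H64.KCt
import Vale.Agent.P011.D4Y.Defs

/-!
Block D4Y: the tower of fields for the change of the quadratic field.
-/

open NumberField

namespace Vale.Agent.P011.D4Y

open Vale.Agent.P011.MPQ Vale.Agent.P011.D4 Vale.Agent.P011.D4.Oct Vale.Agent.P011.E6
open Vale.Agent.P011.D4X

/-- The fields `E₁` and `O = E(√D)` with their automorphisms. -/
structure TowI {k L E : Type} [Field k] [Field L] [Field E] [Algebra k L] [Algebra k E]
    [Algebra L E] (ρ σ ι : E ≃ₐ[k] E) (D : k)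
    {E1 O : Type} [Field E1] [Field O] [Algebra k E1] [Algebra L E1] [Algebra k O] [Algebra E O]
    [Algebra E1 O] (ρ1 σ1 ι1 : E1 ≃ₐ[k] E1) (α1 : E1) (ρ' σ' τ' ι' : O ≃ₐ[k] O) : Prop where
  ρ1L : ∃ t : L, ρ1 (algebraMap L E1 t) ≠ algebraMap L E1 t
  ρ13 : ∀ x, ρ1 (ρ1 (ρ1 x)) = x
  σ12 : ∀ x, σ1 (σ1 x) = x
  ι12 : ∀ x, ι1 (ι1 x) = x
  comm1 : ∀ x, σ1 (ρ1 x) = ρ1 (σ1 x)
  σι1 : ∀ x, σ1 (ι1 x) = ι1 (σ1 x)
  ιρ1 : ∀ x, ι1 (ρ1 x) = ρ1 (ρ1 (ι1 x))
  σ1L : ∀ t : L, σ1 (algebraMap L E1 t) = algebraMap L E1 t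
  ι1L : ∀ t : L, ι1 (algebraMap L E1 t) = ρ1 (ρ1 (algebraMap L E1 t))
  fixL1 : ∀ x : E1, σ1 x = x → ι1 x = ρ1 (ρ1 x) → ∃ t : L, algebraMap L E1 t = x
  fixk1 : ∀ x : E1, ρ1 x = x → σ1 x = x → ι1 x = x → ∃ t : k, algebraMap k E1 t = x
  α12 : α1 * α1 = algebraMap k E1 D
  ρα1 : ρ1 α1 = α1
  σα1 : σ1 α1 = -α1
  ια1 : ι1 α1 = α1
  ρ3 : ∀ x, ρ' (ρ' (ρ' x)) = x
  σ2 : ∀ x, σ' (σ' x) = x
  τ2 : ∀ x, τ' (τ' x) = x
  ι2 : ∀ x, ι' (ι' x) = x
  σρ : ∀ x, σ' (ρ' x) = ρ' (σ' x)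
  τρ : ∀ x, τ' (ρ' x) = ρ' (τ' x)
  στ : ∀ x, σ' (τ' x) = τ' (σ' x)
  ιρ : ∀ x, ι' (ρ' x) = ρ' (ρ' (ι' x))
  ισ : ∀ x, ι' (σ' x) = σ' (ι' x)
  ιτ : ∀ x, ι' (τ' x) = τ' (ι' x)
  ρE : ∀ x : E, ρ' (algebraMap E O x) = algebraMap E O (ρ x)
  σE : ∀ x : E, σ' (algebraMap E O x) = algebraMap E O (σ x)
  τE : ∀ x : E, τ' (algebraMap E O x) = algebraMap E O x
  ιE : ∀ x : E, ι' (algebraMap E O x) = algebraMap E O (ι x)
  ρE1 : ∀ x : E1, ρ' (algebraMap E1 O x) = algebraMap E1 O (ρ1 x)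
  σE1 : ∀ x : E1, σ' (algebraMap E1 O x) = algebraMap E1 O x
  τE1 : ∀ x : E1, τ' (algebraMap E1 O x) = algebraMap E1 O (σ1 x)
  ιE1 : ∀ x : E1, ι' (algebraMap E1 O x) = algebraMap E1 O (ι1 x)
  fixτ : ∀ x : O, τ' x = x → ∃ y : E, algebraMap E O y = x
  fixσ : ∀ x : O, σ' x = x → ∃ y : E1, algebraMap E1 O y = x
  hfix : ∀ x : O, ρ' x = x → σ' x = x → τ' x = x → ι' x = x → ∃ t : k, algebraMap k O t = x

section fixed

variable {k L O : Type} [Field k] [Field L] [Field O] [Algebra k L] [Algebra k O] [Algebra L O]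
  [IsScalarTower k L O]

/-- The fixed field of an automorphism which is the identity on `L`. -/
def fixF (σ : O ≃ₐ[k] O) (h : ∀ t : L, σ (algebraMap L O t) = algebraMap L O t) :
    IntermediateField L O where
  carrier := {x | σ x = x}
  mul_mem' := by
    intro x y hx hy
    change σ (x * y) = x * y
    rw [map_mul, show σ x = x from hx, show σ y = y from hy]
  add_mem' := by
    intro x y hx hy
    change σ (x + y) = x + y
    rw [map_add, show σ x = x from hx, show σ y = y from hy]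
  algebraMap_mem' := h
  inv_mem' := by
    intro x hx
    change σ x⁻¹ = x⁻¹
    rw [map_inv₀, show σ x = x from hx]

/-- The restriction of an automorphism to the fixed field. -/
def resF (σ : O ≃ₐ[k] O) (h : ∀ t : L, σ (algebraMap L O t) = algebraMap L O t) (g : O ≃ₐ[k] O)
    (hg : ∀ x, σ (g x) = g (σ x)) : fixF σ h ≃ₐ[k] fixF σ h where
  toFun x := ⟨g x.1, by
    change σ (g x.1) = g x.1
    rw [hg, show σ x.1 = x.1 from x.2]⟩
  invFun x := ⟨g.symm x.1, by
    change σ (g.symm x.1) = g.symm x.1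
    apply g.injective
    rw [← hg, g.apply_symm_apply, show σ x.1 = x.1 from x.2]⟩
  left_inv x := Subtype.ext (g.symm_apply_apply x.1)
  right_inv x := Subtype.ext (g.apply_symm_apply x.1)
  map_mul' x y := Subtype.ext (map_mul g x.1 y.1)
  map_add' x y := Subtype.ext (map_add g x.1 y.1)
  commutes' r := Subtype.ext (g.commutes r)

end fixed

section main

variable {k L E : Type} [Field k] [Field L] [Field E] [Algebra k L] [Algebra k E] [Algebra L E]
  [IsScalarTower k L E] [NeZero (2 : E)] {ρ σ ι : E ≃ₐ[k] E} {α : E} {a b c : kˣ} {q : Lˣ}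
  (H : HyI ρ σ ι α a b c q)

include H

/-- The tower exists if `D` is not a square in `E`. -/
theorem exists_towI [NumberField L] [NumberField E] {D : k}
    (hD : ∀ x : E, x * x ≠ algebraMap k E D) :
    ∃ (E1 O : Type) (_ : Field E1) (_ : Field O) (_ : Algebra k E1) (_ : Algebra L E1)
      (_ : Algebra k O) (_ : Algebra L O) (_ : Algebra E O) (_ : Algebra E1 O)
      (_ : IsScalarTower k L E1) (_ : IsScalarTower k E O) (_ : IsScalarTower k E1 O)
      (_ : IsScalarTower L E O) (_ : IsScalarTower L E1 O) (_ : IsScalarTower k L O)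
      (_ : NumberField E1) (_ : NumberField O) (ρ1 σ1 ι1 : E1 ≃ₐ[k] E1) (α1 : E1)
      (ρ' σ' τ' ι' : O ≃ₐ[k] O), TowI (L := L) ρ σ ι D ρ1 σ1 ι1 α1 ρ' σ' τ' ι' := by
  have f2 : Fact (∀ r : E, r ^ 2 ≠ algebraMap k E D + 0 * r) := ⟨fun r h => hD r (by
    linear_combination h)⟩
  let O := QuadraticAlgebra E (algebraMap k E D) 0
  have n2 : NumberField O := NumberField.of_module_finite E O
  let ρ' : O ≃ₐ[k] O := qaEquiv ρ D
  let σ' : O ≃ₐ[k] O := qaEquiv σ D
  let ι' : O ≃ₐ[k] O := qaEquiv ι D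
  let τ' : O ≃ₐ[k] O := qaConj k D
  have ρ3 : ∀ x, ρ' (ρ' (ρ' x)) = x := fun x => QuadraticAlgebra.ext (H.ρ3 _) (H.ρ3 _)
  have σ2 : ∀ x, σ' (σ' x) = x := fun x => QuadraticAlgebra.ext (H.σ2 _) (H.σ2 _)
  have ι2 : ∀ x, ι' (ι' x) = x := fun x => QuadraticAlgebra.ext (H.ι2 _) (H.ι2 _)
  have τ2 : ∀ x, τ' (τ' x) = x := fun x => QuadraticAlgebra.ext rfl (neg_neg _)
  have σρ : ∀ x, σ' (ρ' x) = ρ' (σ' x) := fun x => QuadraticAlgebra.ext (H.comm _) (H.comm _)
  have σι : ∀ x, σ' (ι' x) = ι' (σ' x) := fun x => QuadraticAlgebra.ext (H.σι _) (H.σι _)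
  have ιρ : ∀ x, ι' (ρ' x) = ρ' (ρ' (ι' x)) := fun x => QuadraticAlgebra.ext (H.ιρ _) (H.ιρ _)
  have τρ : ∀ x, τ' (ρ' x) = ρ' (τ' x) := fun x => QuadraticAlgebra.ext rfl (map_neg ρ _).symm
  have στ : ∀ x, σ' (τ' x) = τ' (σ' x) := fun x => QuadraticAlgebra.ext rfl (map_neg σ _)
  have ιτ : ∀ x, ι' (τ' x) = τ' (ι' x) := fun x => QuadraticAlgebra.ext rfl (map_neg ι _)
  have ρE : ∀ x : E, ρ' (algebraMap E O x) = algebraMap E O (ρ x) := fun x =>
    QuadraticAlgebra.ext rfl (map_zero ρ)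
  have σE : ∀ x : E, σ' (algebraMap E O x) = algebraMap E O (σ x) := fun x =>
    QuadraticAlgebra.ext rfl (map_zero σ)
  have ιE : ∀ x : E, ι' (algebraMap E O x) = algebraMap E O (ι x) := fun x =>
    QuadraticAlgebra.ext rfl (map_zero ι)
  have τE : ∀ x : E, τ' (algebraMap E O x) = algebraMap E O x := fun x =>
    QuadraticAlgebra.ext rfl neg_zero
  have hLO : ∀ t : L, algebraMap L O t = algebraMap E O (algebraMap L E t) := fun t =>
    IsScalarTower.algebraMap_apply L E O t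
  have hσL : ∀ t : L, σ' (algebraMap L O t) = algebraMap L O t := fun t => by
    rw [hLO, σE, H.σL]
  have fixτ : ∀ x : O, τ' x = x → ∃ y : E, algebraMap E O y = x := by
    intro x hx
    have h1 : -x.im = x.im := congrArg QuadraticAlgebra.im hx
    have h2 : (2 : E) ≠ 0 := NeZero.ne 2
    have h3 : x.im = 0 := by
      have h : (2 : E) * x.im = 0 := by linear_combination -h1
      rcases mul_eq_zero.mp h with h | h
      · exact absurd h h2
      · exact h
    exact ⟨x.re, QuadraticAlgebra.ext rfl h3.symm⟩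
  have hEO : Function.Injective (algebraMap E O) := (algebraMap E O).injective
  have fL : FiniteDimensional L E := Module.Finite.of_restrictScalars_finite ℚ L E
  have fLO : FiniteDimensional L O := FiniteDimensional.trans L E O
  let E1 : IntermediateField L O := fixF σ' hσL
  have n1 : NumberField E1 := NumberField.of_module_finite L E1
  have t1 : IsScalarTower k E1 O := IsScalarTower.of_algebraMap_eq fun _ => rfl
  have hα : (⟨0, 1⟩ : O) ∈ E1 := QuadraticAlgebra.ext (map_zero σ) (map_one σ)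
  refine ⟨E1, O, inferInstance, inferInstance, inferInstance, inferInstance, inferInstance,
    inferInstance, inferInstance, inferInstance, inferInstance, inferInstance, t1,
    inferInstance, inferInstance, inferInstance, n1, n2, resF σ' hσL ρ' σρ, resF σ' hσL τ' στ,
    resF σ' hσL ι' σι, ⟨⟨0, 1⟩, hα⟩, ρ', σ', τ', ι', ?_⟩
  have hαα : (⟨0, 1⟩ : O) * ⟨0, 1⟩ = algebraMap k O D := by
    refine QuadraticAlgebra.ext ?_ ?_
    · change (0 : E) * 0 + algebraMap k E D * 1 * 1 = algebraMap k E D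
      ring
    · change (0 : E) * 1 + 1 * 0 + 0 * 1 * 1 = 0
      ring
  exact
    { ρ1L := by
        obtain ⟨t, ht⟩ := H.ρL
        refine ⟨t, fun h => ht ?_⟩
        have h1 : ρ' (algebraMap L O t) = algebraMap L O t := congrArg Subtype.val h
        rw [hLO, ρE] at h1
        exact hEO h1
      ρ13 := fun x => Subtype.ext (ρ3 x.1)
      σ12 := fun x => Subtype.ext (τ2 x.1)
      ι12 := fun x => Subtype.ext (ι2 x.1)
      comm1 := fun x => Subtype.ext (τρ x.1)
      σι1 := fun x => Subtype.ext (ιτ x.1).symm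
      ιρ1 := fun x => Subtype.ext (ιρ x.1)
      σ1L := fun t => Subtype.ext (by
        change τ' (algebraMap L O t) = algebraMap L O t
        rw [hLO, τE])
      ι1L := fun t => Subtype.ext (by
        change ι' (algebraMap L O t) = ρ' (ρ' (algebraMap L O t))
        rw [hLO, ιE, ρE, ρE, H.ιL])
      fixL1 := fun x h1 h2 => by
        have h1' : τ' x.1 = x.1 := congrArg Subtype.val h1
        have h2' : ι' x.1 = ρ' (ρ' x.1) := congrArg Subtype.val h2
        have h3' : σ' x.1 = x.1 := x.2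
        obtain ⟨y, hy⟩ := fixτ x.1 h1'
        rw [← hy, σE] at h3'
        rw [← hy, ιE, ρE, ρE] at h2'
        obtain ⟨t, ht⟩ := H.fixL y (hEO h3') (hEO h2')
        exact ⟨t, Subtype.ext (by
          change algebraMap L O t = x.1
          rw [hLO, ht, hy])⟩
      fixk1 := fun x h0 h1 h2 => by
        have h0' : ρ' x.1 = x.1 := congrArg Subtype.val h0
        have h1' : τ' x.1 = x.1 := congrArg Subtype.val h1
        have h2' : ι' x.1 = x.1 := congrArg Subtype.val h2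
        have h3' : σ' x.1 = x.1 := x.2
        obtain ⟨y, hy⟩ := fixτ x.1 h1'
        rw [← hy, σE] at h3'
        rw [← hy, ιE] at h2'
        rw [← hy, ρE] at h0'
        obtain ⟨t, ht⟩ := H.fixk y (hEO h0') (hEO h3') (hEO h2')
        exact ⟨t, Subtype.ext (by
          change algebraMap k O t = x.1
          rw [IsScalarTower.algebraMap_apply k E O, ht, hy])⟩
      α12 := Subtype.ext hαα
      ρα1 := Subtype.ext (QuadraticAlgebra.ext (map_zero ρ) (map_one ρ))
      σα1 := Subtype.ext (QuadraticAlgebra.ext neg_zero.symm rfl)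
      ια1 := Subtype.ext (QuadraticAlgebra.ext (map_zero ι) (map_one ι))
      ρ3 := ρ3
      σ2 := σ2
      τ2 := τ2
      ι2 := ι2
      σρ := σρ
      τρ := τρ
      στ := στ
      ιρ := ιρ
      ισ := fun x => (σι x).symm
      ιτ := ιτ
      ρE := ρE
      σE := σE
      τE := τE
      ιE := ιE
      ρE1 := fun _ => rfl
      σE1 := fun x => x.2
      τE1 := fun _ => rfl
      ιE1 := fun _ => rfl
      fixτ := fixτ
      fixσ := fun x hx => ⟨⟨x, hx⟩, rfl⟩
      hfix := fun x h0 h1 h2 h3 => by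
        obtain ⟨y, rfl⟩ := fixτ x h2
        rw [ρE] at h0
        rw [σE] at h1
        rw [ιE] at h3
        obtain ⟨t, ht⟩ := H.fixk y (hEO h0) (hEO h1) (hEO h3)
        exact ⟨t, by rw [IsScalarTower.algebraMap_apply k E O, ht]⟩ }

end main

end Vale.Agent.P011.D4Y
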